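import Vale.Agent.P092.SNT.Main
import Vale.Agent.P092.SNP.Main
import Vale.Agent.P092.SNP.Top

/-!
P092, TEAM N, products, all amplifications (helper157): the joints of `SNP/Blocks` for the picture
`RC.PicX`, and the assembly of `CoreAllE` for a product of factors.
-/

set_option linter.all false

open scoped InnerProductSpace ENNReal LinearAlgebra.Projectivization ZeroAtInfty
open Filter Topology ContinuousLinearMap MeasureTheory TopologicalSpace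

namespace Vale.Agent.P092.SNPT

open Vale.Agent.P092.RC (Cm TRN Moore GG PG YY y0 ct ampH ampH_ap ampW ampO ampW_union range_ampH
  amp_comm_iff adjV3)
open Vale.Agent.P092.H100.Gr (Gr)
open Vale.Agent.P092.H35 (sp mkP)
open Vale.Agent.P092.SN Vale.Agent.P092.SNT Vale.Agent.P092.SNP
open Vale.Agent.P092.H644.Gr3
open Vale.Agent.P092.H232 (Nin)
open Vale.Agent.P092.H218.NC (In Cal Key₁)
open Vale.Agent.P092.H943 (FLeg joint_pi x2_point)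
open Vale.Agent.P092.H333.Amp
open Vale.Agent.P092.H85 (cdat)
open Vale.Agent.P092.H515.St (IsLattice LocK)

/-! ### The joints -/

/-- (X1) for `RC.PicX` -/
def X1Stmt (k k' : Type) [NontriviallyNormedField k] [ProperSpace k] [NontriviallyNormedField k']
    [ProperSpace k'] [MeasurableSpace k] (μ : Measure k) : Prop :=
  ∀ {N N' : ℕ} {E Γ K : Type} [Group E] [TopologicalSpace E] [Group Γ] [NormedAddCommGroup K]
    [InnerProductSpace ℂ K] [CompleteSpace K] (w : kˣ) (ι : GG k N →* E)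
    (a a' : E →* PG k (N + 1)) (π : E →* (K →L[ℂ] K)) (lam : Γ →* (K →L[ℂ] K))
    (W : Set (K →L[ℂ] K)) (Ω : K) (m : Set Γ → (K →L[ℂ] K)) (q : Γ → GG k N) (Z : ℝ → Set Γ)
    (Ec F : YY k N → (CY k N →⋆ₐ[ℂ] (K →L[ℂ] K))) (q' : Γ → GG k' N')
    (E' : CY k' N' →⋆ₐ[ℂ] (K →L[ℂ] K)),
    SN.X.LegN μ w ι a a' π lam W Ω m q Z Ec F → PH q' →
    (∀ R, ∃ C, ∀ γ ∈ Z R, nm (q' γ) ≤ C) → (∀ f, Cm W (E' f)) →
    (∀ h f, π (ι h) * E' f = E' f * π (ι h)) →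
    (∀ γ f, lam γ * E' f * lam γ⁻¹ = E' (act (q' γ) f)) →
    ∀ c M, inc c M → ∀ (u h : CY k N) (f : CY k' N'), NInc (tsupport u) (tsupport h) →
      Ec c u * E' f * F M h = 0

/-- the two legs commute, product form, for `RC.PicX` -/
def XCPStmt {J : Type} [Fintype J] (k : J → Type) [∀ j, NontriviallyNormedField (k j)]
    [∀ j, ProperSpace (k j)] (N : J → ℕ) : Prop :=
  ∀ {E Γ K : Type} [Group E] [TopologicalSpace E] [Group Γ] [Countable Γ]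
    [NormedAddCommGroup K] [InnerProductSpace ℂ K] [CompleteSpace K]
    (ι : ∀ j, GG (k j) (N j) →* E) (a a' : ∀ j, E →* PG (k j) (N j + 1))
    (π : E →* (K →L[ℂ] K)) (lam₁ lam₂ : Γ →* (K →L[ℂ] K)) (X : Set (K →L[ℂ] K)) (Ω : K)
    (q₁ q₂ : ∀ j, Γ → GG (k j) (N j))
    (E₁ E₂ : ∀ j, YY (k j) (N j) → (CY (k j) (N j) →⋆ₐ[ℂ] (K →L[ℂ] K)))
    (σ₁ σ₂ : ∀ j, k j →+* k j)
    (Q₁ Q₂ : ∀ j, C₀(PG (k j) (N j + 1), ℂ) →⋆ₙₐ[ℂ] (K →L[ℂ] K)),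
    AdmP ι a a' → RC.PicX π lam₁ (X ∪ Set.range lam₂) Ω →
    RC.PicX π lam₂ (X ∪ Set.range lam₁) Ω → (∀ x ∈ X, adjoint x ∈ X) →
    (∀ x ∈ X, ∀ g, π g * x * π g⁻¹ ∈ X) → TVE π lam₁ (X ∪ Set.range lam₂) Ω →
    TVE π lam₂ (X ∪ Set.range lam₁) Ω → (∀ j, PH (q₁ j)) → (∀ j, PH (q₂ j)) →
    (∀ C : ℝ, {γ : Γ | ∀ j, nm (q₁ j γ) ≤ C}.Finite) →
    (∀ C : ℝ, {γ : Γ | ∀ j, nm (q₂ j γ) ≤ C}.Finite) →
    (∀ j, ClsN (a j) π lam₁ (X ∪ Set.range lam₂) (q₁ j) (E₁ j) (σ₁ j) (Q₁ j)) →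
    (∀ j, ClsN (a j) π lam₂ (X ∪ Set.range lam₁) (q₂ j) (E₂ j) (σ₂ j) (Q₂ j)) →
    (∀ i j, i ≠ j → ∀ ψ φ, Commute (Q₁ i ψ) (Q₁ j φ)) →
    (∀ i j, i ≠ j → ∀ ψ φ, Commute (Q₂ i ψ) (Q₂ j φ)) →
    ∀ i j ψ φ, Commute (Q₁ i ψ) (Q₂ j φ)

section one

variable {k : Type} [NontriviallyNormedField k] [ProperSpace k] {N N' : ℕ} {E Γ K : Type}
  [Group E] [TopologicalSpace E] [Group Γ] [NormedAddCommGroup K] [InnerProductSpace ℂ K]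
  [CompleteSpace K]

/-- (X1) and (X2): calculi of points of different factors commute -/
theorem x12_of {k' : Type} [NontriviallyNormedField k'] [ProperSpace k'] [MeasurableSpace k]
    {μ : Measure k} (h : X1Stmt k k' μ) {w : kˣ} {ι : GG k N →* E}
    {a a' : E →* PG k (N + 1)} {π : E →* (K →L[ℂ] K)} {lam : Γ →* (K →L[ℂ] K)}
    {W : Set (K →L[ℂ] K)} {Ω : K} {m : Set Γ → (K →L[ℂ] K)} {q : Γ → GG k N} {Z : ℝ → Set Γ}
    {Ec F : YY k N → (CY k N →⋆ₐ[ℂ] (K →L[ℂ] K))}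
    {G : ∀ j, Gr k (Fin (N + 1)) j → (CG k N j →⋆ₐ[ℂ] (K →L[ℂ] K))} {q' : Γ → GG k' N'}
    {E' : CY k' N' →⋆ₐ[ℂ] (K →L[ℂ] K)}
    (hL : SN.X.LegN μ w ι a a' π lam W Ω m q Z Ec F) (hG : CalN ι π lam W q Ec F G) (hK : Key₁ G)
    (hq' : PH q') (hb : ∀ R, ∃ C, ∀ γ ∈ Z R, nm (q' γ) ≤ C) (hcm : ∀ f, Cm W (E' f))
    (hπ : ∀ h f, π (ι h) * E' f = E' f * π (ι h))
    (hcov : ∀ γ f, lam γ * E' f * lam γ⁻¹ = E' (act (q' γ) f)) (c : YY k N) (u : CY k N)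
    (f : CY k' N') : Commute (E' f) (Ec c u) := by
  obtain ⟨u', hu'⟩ : ∃ u' : CG k N 1, fp u' = u :=
    ⟨u.comp ⟨p1H.symm, p1H.symm.continuous⟩, by
      ext x
      change u (p1H.symm (p1 x)) = u x
      rw [← p1H_apply, Homeomorph.symm_apply_apply]⟩
  rw [← hu', ← hG.pnt]
  refine x2_point hL.adm.hN hG.cal hK (E' f) (p1 c) (fun M hM v g hvg => ?_) u'
  obtain ⟨M', rfl⟩ := hyp_surj M
  rw [hG.pnt, hG.top]
  refine h w ι a a' π lam W Ω m q Z Ec F q' E' hL hq' hb hcm hπ hcov c M' (p1_le_hyp.1 hM)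
    (fp v) (fh g) f ?_
  intro x hx l hl hxl
  have h1 : p1 x ∈ tsupport v := tsupport_comp_subset_preimage v p1_cont hx
  have h2 : hyp l ∈ tsupport g := tsupport_comp_subset_preimage g hyp_cont hl
  exact hvg _ h1 _ h2 (p1_le_hyp.2 hxl)

end one

/-! ### The abstract part -/

section leg

variable {J : Type} {k : J → Type} [∀ j, NontriviallyNormedField (k j)] [∀ j, ProperSpace (k j)]
  [∀ j, MeasurableSpace (k j)] {μ : ∀ j, Measure (k j)} {N : J → ℕ} {E Γ K : Type} [Group E]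
  [TopologicalSpace E] [Group Γ] [NormedAddCommGroup K] [InnerProductSpace ℂ K] [CompleteSpace K]

/-- one leg of a product -/
theorem legP {w : ∀ j, (k j)ˣ} {ι : ∀ j, GG (k j) (N j) →* E} {a a' : ∀ j, E →* PG (k j) (N j + 1)}
    {π : E →* (K →L[ℂ] K)} {lam : Γ →* (K →L[ℂ] K)} {W : Set (K →L[ℂ] K)} {Ω : K}
    {m : Set Γ → (K →L[ℂ] K)} {q : ∀ j, Γ → GG (k j) (N j)}
    {Ec F : ∀ j, YY (k j) (N j) → (CY (k j) (N j) →⋆ₐ[ℂ] (K →L[ℂ] K))} (hA : AdmP ι a a')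
    (hL : ∀ j, SN.X.LegN (μ j) (w j) (ι j) (a j) (a' j) π lam W Ω m (q j) (ZP q j) (Ec j) (F j))
    (h1 : ∀ j, SN.X.LegComm (k j) (μ j)) (h4 : ∀ j, SN.X.ClsStmt (k j) (μ j))
    (hX : ∀ i j, i ≠ j → X1Stmt (k i) (k j) (μ i)) :
    ∃ (σ : ∀ j, k j →+* k j) (Q : ∀ j, C₀(PG (k j) (N j + 1), ℂ) →⋆ₙₐ[ℂ] (K →L[ℂ] K)),
      (∀ j, ClsN (a j) π lam W (q j) (Ec j) (σ j) (Q j)) ∧
      (∀ i j, i ≠ j → ∀ ψ φ, Commute (Q i ψ) (Q j φ)) := by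
  choose G hG hK using fun j => h1 j (w j) (ι j) (a j) (a' j) π lam W Ω m (q j) (ZP q j) (Ec j)
    (F j) (hL j)
  choose σ Q hQ using fun j => h4 j (w j) (ι j) (a j) (a' j) π lam W Ω m (q j) (ZP q j) (Ec j)
    (F j) (G j) (hL j) (hG j) (hK j)
  refine ⟨σ, Q, hQ, fun i j hij ψ φ => ?_⟩
  refine clsN_gen (hQ j) (fun y f => ?_) φ
  refine (clsN_gen (hQ i) (fun c u => ?_) ψ).symm
  refine x12_of (hX i j hij) (hL i) (hG i) (hK i) (hL j).ph (fun R => ⟨R, fun γ hγ => ?_⟩)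
    (fun g => (hL j).e.cm y g) (fun h g => ?_) (fun γ g => (hL j).e.cov γ y g) c u f
  · exact hγ j hij.symm
  · have e := (hL j).e.pcov (ι i h) y g
    rw [hA.triv i j hij h y] at e
    have e2 : π (ι i h)⁻¹ * π (ι i h) = 1 := by rw [← map_mul, inv_mul_cancel, map_one]
    calc π (ι i h) * Ec j y g = π (ι i h) * Ec j y g * (π (ι i h)⁻¹ * π (ι i h)) := by
          rw [e2, mul_one]
      _ = π (ι i h) * Ec j y g * π (ι i h)⁻¹ * π (ι i h) := by simp only [mul_assoc]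
      _ = _ := by rw [e]

variable {ι : ∀ j, GG (k j) (N j) →* E} {a a' : ∀ j, E →* PG (k j) (N j + 1)}
  {π : E →* (K →L[ℂ] K)} {lam₁ lam₂ : Γ →* (K →L[ℂ] K)} {X : Set (K →L[ℂ] K)}

/-- **Two legs of families over a product give two commuting classical legs.** -/
theorem clegsP_of [Fintype J] [Countable Γ] [∀ j, OpensMeasurableSpace (k j)]
    (hA : AdmP ι a a') (hLC : ∀ j, SN.X.LegComm (k j) (μ j))
    (hCls : ∀ j, SN.X.ClsStmt (k j) (μ j)) (hX1 : ∀ i j, i ≠ j → X1Stmt (k i) (k j) (μ i))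
    (hXC : XCPStmt k N)
    {κ κ₁ κ₂ : Type} [Fintype κ] [Fintype κ₁] [Fintype κ₂] {Ω : κ → K} {Ω₁ : κ₁ → K} {Ω₂ : κ₂ → K}
    (hp : RC.Pic2F π lam₁ lam₂ X Ω) (tv : TVEF π lam₁ (X ∪ Set.range lam₂) Ω)
    {w₁ w₂ : ∀ j, (k j)ˣ} {m₁ m₂ : Set Γ → (K →L[ℂ] K)} {q₁ q₂ : ∀ j, Γ → GG (k j) (N j)}
    {E₁ F₁ E₂ F₂ : ∀ j, YY (k j) (N j) → (CY (k j) (N j) →⋆ₐ[ℂ] (K →L[ℂ] K))}
    (l1 : ∀ j, LegNF (μ j) (w₁ j) (ι j) (a j) (a' j) π lam₁ (X ∪ Set.range lam₂) Ω₁ m₁ (q₁ j)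
      (ZP q₁ j) (E₁ j) (F₁ j))
    (l2 : ∀ j, LegNF (μ j) (w₂ j) (ι j) (a j) (a' j) π lam₂ (X ∪ Set.range lam₁) Ω₂ m₂ (q₂ j)
      (ZP q₂ j) (E₂ j) (F₂ j))
    (i1 : ∀ γ, (∀ j, sp (k j) (N j + 1) (q₁ j γ) = 1) → γ = 1)
    (i2 : ∀ γ, (∀ j, sp (k j) (N j + 1) (q₂ j γ) = 1) → γ = 1)
    (d1 : ∀ C : ℝ, {γ : Γ | ∀ j, nm (q₁ j γ) ≤ C}.Finite)
    (d2 : ∀ C : ℝ, {γ : Γ | ∀ j, nm (q₂ j γ) ≤ C}.Finite) :
    ∃ Q₁ Q₂ : C₀(∀ j, PG (k j) (N j + 1), ℂ) →⋆ₙₐ[ℂ] (K →L[ℂ] K),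
      H264.Cl.CLeg π lam₁ (X ∪ Set.range lam₂)
        (MonoidHom.pi fun j => qP (q₁ j) (l1 j).ph) Q₁ ∧
      H264.Cl.CLeg π lam₂ (X ∪ Set.range lam₁)
        (MonoidHom.pi fun j => qP (q₂ j) (l2 j).ph) Q₂ ∧
      ∀ ψ φ, Commute (Q₁ ψ) (Q₂ φ) := by
  choose n₁ g₁ using fun j => SN.X.exists_leg_amp (l1 j)
  choose n₂ g₂ using fun j => SN.X.exists_leg_amp (l2 j)
  obtain ⟨n₃, g₃⟩ := hp.leg₁.exists_amp
  obtain ⟨n₄, g₄⟩ := hp.leg₂.exists_amp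
  obtain ⟨Q, _, _, ⟨jj⟩, hN⟩ := RC.exists_grp (κ ⊕ κ₁ ⊕ κ₂) (∑ j, n₁ j + ∑ j, n₂ j + n₃ + n₄)
  obtain ⟨j₀, -⟩ : ∃ j : κ ↪ Q, True := ⟨Function.Embedding.inl.trans jj, trivial⟩
  obtain ⟨j₁, -⟩ : ∃ j : κ₁ ↪ Q, True :=
    ⟨(Function.Embedding.inl.trans Function.Embedding.inr).trans jj, trivial⟩
  obtain ⟨j₂, -⟩ : ∃ j : κ₂ ↪ Q, True :=
    ⟨(Function.Embedding.inr.trans Function.Embedding.inr).trans jj, trivial⟩
  have b1 : ∀ j, n₁ j ≤ ∑ j, n₁ j := fun j =>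
    Finset.single_le_sum (f := n₁) (fun i _ => Nat.zero_le _) (Finset.mem_univ j)
  have b2 : ∀ j, n₂ j ≤ ∑ j, n₂ j := fun j =>
    Finset.single_le_sum (f := n₂) (fun i _ => Nat.zero_le _) (Finset.mem_univ j)
  have L1 := fun j => g₁ j Q (by have := b1 j; omega) j₁
  have L2 := fun j => g₂ j Q (by have := b2 j; omega) j₂
  have P1 := g₃ Q (by omega) j₀
  have P2 := g₄ Q (by omega) j₀
  have T1 : TVE (ampH Q π) (ampH Q lam₁) (ampW Q (X ∪ Set.range lam₂)) (ampO j₀ Ω) := tvE_amp tv j₀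
  have hM : ∀ Y ∈ SD.MM lam₂ (X ∪ Set.range lam₁), Y ∈ SD.MM lam₁ (X ∪ Set.range lam₂) := by
    rintro Y ⟨h1, h2⟩
    refine ⟨?_, fun γ => h1 _ (Or.inr ⟨γ, rfl⟩)⟩
    rintro w (hw | ⟨γ, rfl⟩)
    · exact h1 _ (Or.inl hw)
    · exact h2 γ
  have tv2 : TVEF π lam₂ (X ∪ Set.range lam₁) Ω := fun Y hY h => tv Y (hM Y hY) h
  have T2 : TVE (ampH Q π) (ampH Q lam₂) (ampW Q (X ∪ Set.range lam₁)) (ampO j₀ Ω) :=
    tvE_amp tv2 j₀
  obtain ⟨σ₁, P, c1, k1⟩ := legP hA L1 hLC hCls hX1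
  obtain ⟨σ₂, R, c2, k2⟩ := legP hA L2 hLC hCls hX1
  obtain ⟨QQ₁, C1, u1⟩ := joint_pi (fun j => fleg_of (l1 j).ph (c1 j)) k1
    (injP (fun j => (l1 j).ph) i1) (discP (fun j => (l1 j).ph) d1)
  obtain ⟨QQ₂, C2, u2⟩ := joint_pi (fun j => fleg_of (l2 j).ph (c2 j)) k2
    (injP (fun j => (l2 j).ph) i2) (discP (fun j => (l2 j).ph) d2)
  have hc : ∀ i j ψ φ, Commute (P i ψ) (R j φ) := by
    have c1' : ∀ j, ClsN (a j) (ampH Q π) (ampH Q lam₁) (ampW Q X ∪ Set.range (ampH Q lam₂)) (q₁ j)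
        (fun x => ampC Q (E₁ j x)) (σ₁ j) (P j) := fun j => by
      have h := c1 j
      rwa [ampW_union, ← range_ampH] at h
    have c2' : ∀ j, ClsN (a j) (ampH Q π) (ampH Q lam₂) (ampW Q X ∪ Set.range (ampH Q lam₁)) (q₂ j)
        (fun x => ampC Q (E₂ j x)) (σ₂ j) (R j) := fun j => by
      have h := c2 j
      rwa [ampW_union, ← range_ampH] at h
    rw [ampW_union, ← range_ampH] at P1 P2 T1 T2
    refine hXC ι a a' (ampH Q π) (ampH Q lam₁) (ampH Q lam₂) (ampW Q X) (ampO j₀ Ω) q₁ q₂ _ _ σ₁ σ₂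
      P R hA P1 P2 ?_ ?_ T1 T2 (fun j => (l1 j).ph) (fun j => (l2 j).ph) d1 d2 c1' c2' k1 k2
    · rintro _ (⟨w, hw, rfl⟩ | ⟨f, rfl⟩)
      · rw [adjoint_amp]
        exact Or.inl ⟨_, hp.Xadj w hw, rfl⟩
      · rw [adjoint_sg]
        exact Or.inr ⟨_, rfl⟩
    · rintro _ (⟨w, hw, rfl⟩ | ⟨f, rfl⟩) g
      · rw [ampH_ap, ampH_ap, ← amp_mul, ← amp_mul]
        exact Or.inl ⟨_, hp.XP w hw g, rfl⟩
      · have h1 : π g * π g⁻¹ = 1 := by rw [← map_mul, mul_inv_cancel, map_one]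
        rw [ampH_ap, ampH_ap, amp_sg, mul_assoc, ← amp_mul, h1, amp_one, mul_one]
        exact Or.inr ⟨_, rfl⟩
  obtain ⟨P', e1, h1⟩ := cleg_unamp C1
  obtain ⟨R', e2, h2⟩ := cleg_unamp C2
  refine ⟨P', R', h1, h2, fun Ψ Φ => ?_⟩
  have h3 : Commute (QQ₁ Ψ) (QQ₂ Φ) := by
    refine u2 _ (fun j φ => ?_) Φ
    exact (u1 _ (fun i ψ => (hc i j ψ φ).symm) Ψ).symm
  rw [e1, e2] at h3
  exact amp_comm_iff.1 h3

end leg

/-! ### The concrete picture -/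

section conc

open Vale.Agent.P092.SR Vale.Agent.P092.H160 Vale.Agent.P092.H103 Vale.Agent.P092.H962

/-- **[P-EX-T]** the concrete picture over a product, all amplifications: all factors of both legs
and their calculi. `q₁ j` is the coordinate `τ j` of the target (dualised if necessary). The
families `Ω₁`, `Ω₂` are free. -/
def ExPStmtT {J : Type} [Fintype J] (k : J → Type) [∀ j, NontriviallyNormedField (k j)]
    [∀ j, ProperSpace (k j)] [∀ j, MeasurableSpace (k j)] (μ : ∀ j, Measure (k j)) (N : J → ℕ)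
    {E : Type} [Group E] [TopologicalSpace E]
    [IsTopologicalGroup E] [LocallyCompactSpace E] [SecondCountableTopology E] [T2Space E]
    (ι : ∀ j, GG (k j) (N j) →* E) (a a' : ∀ j, E →* PG (k j) (N j + 1)) : Prop :=
  ∀ [MeasurableSpace E] [BorelSpace E] {Γ : Subgroup E} [DiscreteTopology Γ] [Countable Γ]
    [MeasurableSpace (E ⧸ Γ)] [BorelSpace (E ⧸ Γ)] {ν : Measure (E ⧸ Γ)}
    [IsProbabilityMeasure ν] (hν : ∀ g : E, ν.map (fun x => g • x) = ν)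
    (_ : IsLattice Γ) (_ : ∀ g : Γ, g ≠ 1 → Set.Infinite {y : Γ | ∃ h, y = h * g * h⁻¹})
    {Λ : Type} [Group Λ] [Countable Λ]
    (_ : ∀ g : Λ, g ≠ 1 → Set.Infinite {y : Λ | ∃ h, y = h * g * h⁻¹})
    {I : Type} [Fintype I] {α : Γ → (Ell2 (I × Λ) →L[ℂ] Ell2 (I × Λ))} (hα : AF α),
    ∃ (w : ∀ j, (k j)ˣ) (κ₁ κ₂ : Type) (_ : Fintype κ₁) (_ : Fintype κ₂)
      (Ω₁ : κ₁ → Lp (HH (PT α α α)) 2 (cdat ν hν).μ) (Ω₂ : κ₂ → Lp (HH (PT α α α)) 2 (cdat ν hν).μ)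
      (m₁ m₂ : Set Γ → (Lp (HH (PT α α α)) 2 (cdat ν hν).μ →L[ℂ]
        Lp (HH (PT α α α)) 2 (cdat ν hν).μ)) (q₁ q₂ : ∀ j, Γ → GG (k j) (N j))
      (E₁ F₁ E₂ F₂ : ∀ j, YY (k j) (N j) → (CY (k j) (N j) →⋆ₐ[ℂ]
        (Lp (HH (PT α α α)) 2 (cdat ν hν).μ →L[ℂ] Lp (HH (PT α α α)) 2 (cdat ν hν).μ))),
      (∀ j, LegNF (μ j) (w j) (ι j) (a j) (a' j)
        (H34.Ind.pi (cdat ν hν) (V := V3 hα hα hα) (adjV3 hα))
        (H34.Ind.lam (cdat ν hν) (A3R hα hα hα))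
        (H34.Ind.Xset (cdat ν hν) (HH (PT α α α)) ∪
          Set.range (H34.Ind.lam (cdat ν hν) (B3R hα hα hα))) Ω₁ m₁ (q₁ j) (ZP q₁ j)
        (E₁ j) (F₁ j)) ∧
      (∀ j, LegNF (μ j) (w j) (ι j) (a j) (a' j)
        (H34.Ind.pi (cdat ν hν) (V := V3 hα hα hα) (adjV3 hα))
        (H34.Ind.lam (cdat ν hν) (B3R hα hα hα))
        (H34.Ind.Xset (cdat ν hν) (HH (PT α α α)) ∪
          Set.range (H34.Ind.lam (cdat ν hν) (A3R hα hα hα))) Ω₂ m₂ (q₂ j) (ZP q₂ j)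
        (E₂ j) (F₂ j)) ∧
      (∀ γ, (∀ j, sp (k j) (N j + 1) (q₁ j γ) = 1) → γ = 1) ∧
      (∀ γ, (∀ j, sp (k j) (N j + 1) (q₂ j γ) = 1) → γ = 1) ∧
      (∀ C : ℝ, {γ : Γ | ∀ j, nm (q₁ j γ) ≤ C}.Finite) ∧
      (∀ C : ℝ, {γ : Γ | ∀ j, nm (q₂ j γ) ≤ C}.Finite)

/-- the empty product -/
theorem coreAllE_of_subsingleton (E : Type) [Group E] [TopologicalSpace E] [Subsingleton E] :
    CoreAllE E := by
  intro Γ _ hicc Λ _ _ hΛ n p hpj θ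
  have hα : AF (H103.alf θ) := H103.af_of hicc hpj θ
  obtain ⟨m, m', ξ, hT⟩ := H962.exists_tri hα hα hα hΛ
  obtain ⟨i₀, hi⟩ := hT.ne
  refine H264.Amp.canonM_of_over hicc hΛ hpj θ rfl hα
    ⟨1, fun _ => ξ i₀, ‖ξ i₀‖ ^ 2, by have := norm_pos_iff.2 hi; positivity, fun g => ?_⟩
  refine ⟨0, 0, 1, 1, ?_⟩
  have hg : g = 1 := Subsingleton.elim _ _
  rw [hg, map_one, map_one, map_one]
  change ‖ξ i₀‖ ^ 2 ≤ ‖⟪ξ i₀, ξ i₀⟫_ℂ‖
  rw [inner_self_eq_norm_sq_to_K, norm_pow]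
  simp

variable {J : Type} {k : J → Type} [∀ j, NontriviallyNormedField (k j)] [∀ j, ProperSpace (k j)]
  [∀ j, MeasurableSpace (k j)] {μ : ∀ j, Measure (k j)} {N : J → ℕ} {E : Type} [Group E]
  [TopologicalSpace E] [IsTopologicalGroup E] [LocallyCompactSpace E] [SecondCountableTopology E]
  [T2Space E]

/-- **The core statement for a product, all amplifications**, from the joints. -/
theorem coreAllP_of [Fintype J] [NoncompactSpace E] [∀ j, OpensMeasurableSpace (k j)]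
    {ι : ∀ j, GG (k j) (N j) →* E} {a a' : ∀ j, E →* PG (k j) (N j + 1)} (hA : AdmP ι a a')
    (h1 : ∀ j, SN.X.LegComm (k j) (μ j)) (h4 : ∀ j, SN.X.ClsStmt (k j) (μ j))
    (hX : ∀ i j, i ≠ j → X1Stmt (k i) (k j) (μ i)) (hXC : XCPStmt k N)
    (hEx : ExPStmtT k μ N ι a a') : CoreAllE E := by
  intro Γ hΓ hicc Λ _ _ hΛ n p hpj θ
  letI : MeasurableSpace E := borel _
  haveI : BorelSpace E := ⟨rfl⟩
  haveI hd : DiscreteTopology Γ := hΓ.disc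
  haveI hc : Countable Γ := H790.countable_of_discrete (E := E) Γ
  letI : MeasurableSpace (E ⧸ Γ) := borel _
  haveI : BorelSpace (E ⧸ Γ) := ⟨rfl⟩
  obtain ⟨ν, hP', hν⟩ := H515.IsLattice.exists_prob (Λ := Γ) ⟨hΓ.disc, hΓ.covol⟩
  have hα : AF (H103.alf θ) := H103.af_of hicc hpj θ
  obtain ⟨m, m', ξ, hT⟩ := H962.exists_tri hα hα hα hΛ
  obtain ⟨B, b, hB⟩ := H421.HsT.exists_basisHH (P := PT (H103.alf θ) (H103.alf θ) (H103.alf θ))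
  have p2 := RC.pic2F_HH hν hα hα hα hicc hΛ (adjV3 hα) hT
  have tv := tv_tri hν (adjV3 hα) b hT
  obtain ⟨w, κ₁, κ₂, _, _, Ω₁, Ω₂, m₁, m₂, q₁, q₂, E₁, F₁, E₂, F₂, l1, l2, i1, i2, d1, d2⟩ :=
    hEx (Γ := Γ) hν hΓ hicc hΛ hα
  obtain ⟨Q₁, Q₂, c1, c2, c12⟩ := clegsP_of hA h1 h4 hX hXC p2 tv l1 l2 i1 i2 d1 d2
  exact H264.Amp.canonM_of_over hicc hΛ hpj θ rfl hα (H264.Amp.over_of_legs hν hT
    (X := H34.Ind.Xset (cdat ν hν) (HH (PT (H103.alf θ) (H103.alf θ) (H103.alf θ))))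
    (fun S hS => ⟨S, hS, rfl⟩) c1 c2 c12)

end conc

/-! ### The top -/

section top

open Vale.Agent.P092.SNP.St Vale.Agent.P092.SR.St

/-- The core statement, all local fields, all amplifications. -/
def CoreAllA : Prop :=
  ∀ (I : Type) [Fintype I] (E : I → Type) [∀ j, Group (E j)] [∀ j, TopologicalSpace (E j)],
    (∀ j, TypeA (E j)) → CoreAllE (∀ j, E j)

/-- The core statement, one field, all amplifications. -/
def CoreAllK (k : Type) [NontriviallyNormedField k] : Prop :=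
  ∀ (I : Type) [Fintype I] (n : I → ℕ) (E : I → Type) [∀ j, Group (E j)]
    [∀ j, TopologicalSpace (E j)], (∀ j, 3 ≤ n j) → (∀ j, TypeK (n j) k (E j)) →
    CoreAllE (∀ j, E j)

theorem finalAll_of (h : CoreAllA) : SNP.St.FinalAll := by
  intro Γ _ hΓ
  obtain ⟨hicc, I, _, E, _, _, i, ht, hi, hl⟩ := hΓ
  exact superAll_of_coreAllE (h I E ht) hicc i hi hl

/-- Version with one local field, all amplifications. -/
def FinalAllK : Prop := ∀ (k : Type) [NontriviallyNormedField k] [ProperSpace k], LocK k →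
  ∀ (Γ : Type) [Group Γ], LatticeK k Γ → SuperAll Γ

theorem finalAllK_of (h : ∀ (k : Type) [NontriviallyNormedField k] [ProperSpace k], LocK k →
    CoreAllK k) : FinalAllK := by
  intro k _ _ hk Γ _ hΓ
  obtain ⟨hicc, I, _, n, E, _, _, i, hn, ht, hi, hl⟩ := hΓ
  exact superAll_of_coreAllE (h k hk I n E hn ht) hicc i hi hl

end top

end Vale.Agent.P092.SNPT
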