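import Vale.Agent.P092.SNPT.Flip
import Vale.Agent.P092.H34.X.NP
import Vale.Agent.P092.H34.X.NFin

/-!
P092, TEAM N, products, all amplifications (helper157): with the joints of helper34, everything
from the first leg of the concrete picture.
-/

set_option linter.all false

open MeasureTheory

namespace Vale.Agent.P092.SNPT

open Vale.Agent.P092.SN Vale.Agent.P092.SNT Vale.Agent.P092.SNP

/-- **The final statement for products**, one local field, all amplifications, from the first
leg. -/
theorem finalAllK_of_half (h : ∀ (k : Type) [NontriviallyNormedField k] [ProperSpace k]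
    [MeasurableSpace k] [BorelSpace k] (μ : Measure k) [μ.IsAddHaarMeasure], H933.LocK k →
    ExPSHalfT k μ) : FinalAllK := by
  refine finalAllK fun k _ _ _ _ μ _ hk => ?_
  obtain ⟨h1, h2, -⟩ := H34.XN.joints (μ := μ) hk
  exact ⟨h1, h2, H34.XN.x1Stmt hk, exPST_of_half (h k μ hk), fun N => H34.XN.xcpStmt _ N⟩

end Vale.Agent.P092.SNPT
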