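import Vale.Agent.P092.SNPT.Main
import Vale.Agent.P092.SNP.Fin

/-!
P092, TEAM N, products, all amplifications (helper157): the source group `E = ∏ PSL_(N j + 1)(k)`,
and the final statement `SNPT.FinalAllK` (all ICC lattices in finite products of groups `SL_n(k)`,
`PSL_n(k)`, one local field `k`, `n ≥ 3`) from the joints.
-/

set_option linter.all false

open scoped InnerProductSpace ENNReal LinearAlgebra.Projectivization ZeroAtInfty
open Filter Topology ContinuousLinearMap MeasureTheory TopologicalSpace Matrix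

namespace Vale.Agent.P092.SNPT

open Vale.Agent.P092.RC (GG PG YY)
open Vale.Agent.P092.SN Vale.Agent.P092.SNT Vale.Agent.P092.SNP
open Vale.Agent.P092.SR.St Vale.Agent.P092.SNP.St Vale.Agent.P092.H515.St
open Vale.Agent.P092.H387.Ad (PS)

/-- **[P-EX-T]** for `E = ∏ PSL_(N j + 1)(k)`, one local field -/
def ExPST (k : Type) [NontriviallyNormedField k] [ProperSpace k] [MeasurableSpace k]
    (μ : Measure k) : Prop :=
  ∀ {J : Type} [Fintype J] [DecidableEq J] (N : J → ℕ), (∀ j, 2 ≤ N j) →
    ExPStmtT (fun _ : J => k) (fun _ => μ) N (iP (fun _ : J => k) N) (aP (fun _ : J => k) N)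
      (aP' (fun _ : J => k) N)

/-- the core statement for `∏ PSL_(N j + 1)(k)`, all amplifications -/
theorem coreAllE_PS {k : Type} [NontriviallyNormedField k] [ProperSpace k] [MeasurableSpace k]
    [OpensMeasurableSpace k] {μ : Measure k} (hk : H933.LocK k) (h1 : SN.X.LegComm k μ)
    (h4 : SN.X.ClsStmt k μ) (hX : SNPT.X1Stmt k k μ) (hEx : ExPST k μ) {J : Type} [Fintype J]
    [DecidableEq J] {N : J → ℕ} (hXC : SNPT.XCPStmt (fun _ : J => k) N) (hN : ∀ j, 2 ≤ N j) :
    CoreAllE (EP (fun _ : J => k) N) := by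
  rcases isEmpty_or_nonempty J with hJ | ⟨⟨j₀⟩⟩
  · haveI : Subsingleton (EP (fun _ : J => k) N) := ⟨fun x y => funext fun j => hJ.elim j⟩
    exact coreAllE_of_subsingleton _
  · have hA := admP_PS (fun _ : J => k) N (fun _ => hk) hN
    haveI : NoncompactSpace (EP (fun _ : J => k) N) := noncompact_of_adm (hA.adm j₀)
    exact coreAllP_of hA (fun _ => h1) (fun _ => h4) (fun _ _ _ => hX) hXC (hEx N hN)

/-- **The final statement for products**, one local field, all amplifications, from the joints. -/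
theorem finalAllK (h : ∀ (k : Type) [NontriviallyNormedField k] [ProperSpace k]
    [MeasurableSpace k] [BorelSpace k] (μ : Measure k) [μ.IsAddHaarMeasure], H933.LocK k →
    SN.X.LegComm k μ ∧ SN.X.ClsStmt k μ ∧ SNPT.X1Stmt k k μ ∧ ExPST k μ ∧
      ∀ {J : Type} [Fintype J] (N : J → ℕ), SNPT.XCPStmt (fun _ : J => k) N) : FinalAllK := by
  intro k _ _ hk Γ _ hΓ
  obtain ⟨hicc, I, _, n, i, hn, hi, hl⟩ := latK_normal hΓ
  letI : MeasurableSpace k := borel k
  haveI : BorelSpace k := ⟨rfl⟩
  classical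
  obtain ⟨h1, h2, h3, h4, h5⟩ := h k (Measure.addHaar : Measure k) (SN.lk hk)
  obtain ⟨N, rfl⟩ : ∃ N : I → ℕ, n = fun j => N j + 1 :=
    ⟨fun j => n j - 1, funext fun j => by
      have h3 := hn j
      change n j = n j - 1 + 1
      omega⟩
  exact superAll_of_coreAllE (coreAllE_PS (SN.lk hk) h1 h2 h3 h4 (h5 N)
    (fun j => by
      have h3 : 3 ≤ N j + 1 := hn j
      omega)) hicc i hi hl

end Vale.Agent.P092.SNPT
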