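import Vale.Agent.P092.SNT.Flip
import Vale.Agent.P092.SNPT.Fin

/-!
P092, TEAM N, products, all amplifications (helper157): the second leg of the model
`HH (PT α α α)` over a product from the first one.
-/

set_option linter.all false

open scoped InnerProductSpace ENNReal LinearAlgebra.Projectivization ZeroAtInfty
open Filter Topology ContinuousLinearMap MeasureTheory TopologicalSpace

namespace Vale.Agent.P092.SNPT

open Vale.Agent.P092.RC (GG PG YY cj adjV3)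
open Vale.Agent.P092.SN Vale.Agent.P092.SNT Vale.Agent.P092.SNP
open Vale.Agent.P092.H35 (sp)
open Vale.Agent.P092.H85 (cdat)
open Vale.Agent.P092.H515.St (IsLattice LocK)

section gen

variable {J : Type} {k : J → Type} [∀ j, NontriviallyNormedField (k j)] [∀ j, ProperSpace (k j)]
  [∀ j, MeasurableSpace (k j)] {μ : ∀ j, Measure (k j)} {N : J → ℕ} {E Γ K : Type} [Group E]
  [TopologicalSpace E] [Group Γ] [NormedAddCommGroup K] [InnerProductSpace ℂ K] [CompleteSpace K]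
  {ι : ∀ j, GG (k j) (N j) →* E} {a a' : ∀ j, E →* PG (k j) (N j + 1)} {π : E →* (K →L[ℂ] K)}
  {lam₁ lam₂ : Γ →* (K →L[ℂ] K)} {W₁ W₂ : Set (K →L[ℂ] K)}

theorem exP_of_half
    (hf : ∀ (κ : Type) [Fintype κ] (Ω : κ → K) (m : Set Γ → (K →L[ℂ] K)), ∃ (Ω' : κ → K)
      (m' : Set Γ → (K →L[ℂ] K)), ∀ (j : J) (w : (k j)ˣ) (q : Γ → GG (k j) (N j)) (Z : ℝ → Set Γ)
      (Ec F : YY (k j) (N j) → (CY (k j) (N j) →⋆ₐ[ℂ] (K →L[ℂ] K))),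
      LegNF (μ j) w (ι j) (a j) (a' j) π lam₁ W₁ Ω m q Z Ec F →
      ∃ Ec' F' : YY (k j) (N j) → (CY (k j) (N j) →⋆ₐ[ℂ] (K →L[ℂ] K)),
        LegNF (μ j) w (ι j) (a j) (a' j) π lam₂ W₂ Ω' m' q Z Ec' F')
    (h : ∃ (w : ∀ j, (k j)ˣ) (κ : Type) (_ : Fintype κ) (Ω : κ → K) (m : Set Γ → (K →L[ℂ] K))
      (q : ∀ j, Γ → GG (k j) (N j))
      (Ec F : ∀ j, YY (k j) (N j) → (CY (k j) (N j) →⋆ₐ[ℂ] (K →L[ℂ] K))),
      (∀ j, LegNF (μ j) (w j) (ι j) (a j) (a' j) π lam₁ W₁ Ω m (q j) (ZP q j) (Ec j) (F j)) ∧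
      (∀ γ, (∀ j, sp (k j) (N j + 1) (q j γ) = 1) → γ = 1) ∧
      (∀ C : ℝ, {γ : Γ | ∀ j, nm (q j γ) ≤ C}.Finite)) :
    ∃ (w : ∀ j, (k j)ˣ) (κ₁ κ₂ : Type) (_ : Fintype κ₁) (_ : Fintype κ₂) (Ω₁ : κ₁ → K)
      (Ω₂ : κ₂ → K) (m₁ m₂ : Set Γ → (K →L[ℂ] K)) (q₁ q₂ : ∀ j, Γ → GG (k j) (N j))
      (E₁ F₁ E₂ F₂ : ∀ j, YY (k j) (N j) → (CY (k j) (N j) →⋆ₐ[ℂ] (K →L[ℂ] K))),
      (∀ j, LegNF (μ j) (w j) (ι j) (a j) (a' j) π lam₁ W₁ Ω₁ m₁ (q₁ j) (ZP q₁ j)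
        (E₁ j) (F₁ j)) ∧
      (∀ j, LegNF (μ j) (w j) (ι j) (a j) (a' j) π lam₂ W₂ Ω₂ m₂ (q₂ j) (ZP q₂ j)
        (E₂ j) (F₂ j)) ∧
      (∀ γ, (∀ j, sp (k j) (N j + 1) (q₁ j γ) = 1) → γ = 1) ∧
      (∀ γ, (∀ j, sp (k j) (N j + 1) (q₂ j γ) = 1) → γ = 1) ∧
      (∀ C : ℝ, {γ : Γ | ∀ j, nm (q₁ j γ) ≤ C}.Finite) ∧
      (∀ C : ℝ, {γ : Γ | ∀ j, nm (q₂ j γ) ≤ C}.Finite) := by
  obtain ⟨w, κ, iκ, Ω, m, q, Ec, F, l1, h1, h2⟩ := h
  obtain ⟨Ω', m', h3⟩ := hf κ Ω m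
  choose Ec' F' l2 using fun j => h3 j (w j) (q j) (ZP q j) (Ec j) (F j) (l1 j)
  exact ⟨w, κ, κ, iκ, iκ, Ω, Ω', m, m', q, q, Ec, F, Ec', F', l1, l2, h1, h1, h2, h2⟩

end gen

section half

open Vale.Agent.P092.SR Vale.Agent.P092.H160 Vale.Agent.P092.H103 Vale.Agent.P092.H962
open Vale.Agent.P092.SDT (sT sT_sq sT_adj sT_V sT_A sT_B)

/-- **[P-HALF-T]** the first leg of the concrete picture over a product, all amplifications. The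
family `Ω` is free. -/
def ExPHalfT {J : Type} [Fintype J] (k : J → Type) [∀ j, NontriviallyNormedField (k j)]
    [∀ j, ProperSpace (k j)] [∀ j, MeasurableSpace (k j)] (μ : ∀ j, Measure (k j)) (N : J → ℕ)
    {E : Type} [Group E] [TopologicalSpace E]
    [IsTopologicalGroup E] [LocallyCompactSpace E] [SecondCountableTopology E] [T2Space E]
    (ι : ∀ j, GG (k j) (N j) →* E) (a a' : ∀ j, E →* PG (k j) (N j + 1)) : Prop :=
  ∀ [MeasurableSpace E] [BorelSpace E] {Γ : Subgroup E} [DiscreteTopology Γ] [Countable Γ]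
    [MeasurableSpace (E ⧸ Γ)] [BorelSpace (E ⧸ Γ)] {ν : Measure (E ⧸ Γ)}
    [IsProbabilityMeasure ν] (hν : ∀ g : E, ν.map (fun x => g • x) = ν)
    (_ : IsLattice Γ) (_ : ∀ g : Γ, g ≠ 1 → Set.Infinite {y : Γ | ∃ h, y = h * g * h⁻¹})
    {Λ : Type} [Group Λ] [Countable Λ]
    (_ : ∀ g : Λ, g ≠ 1 → Set.Infinite {y : Λ | ∃ h, y = h * g * h⁻¹})
    {I : Type} [Fintype I] {α : Γ → (Ell2 (I × Λ) →L[ℂ] Ell2 (I × Λ))} (hα : AF α),
    ∃ (w : ∀ j, (k j)ˣ) (κ : Type) (_ : Fintype κ)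
      (Ω : κ → Lp (HH (PT α α α)) 2 (cdat ν hν).μ)
      (m : Set Γ → (Lp (HH (PT α α α)) 2 (cdat ν hν).μ →L[ℂ]
        Lp (HH (PT α α α)) 2 (cdat ν hν).μ)) (q : ∀ j, Γ → GG (k j) (N j))
      (Ec F : ∀ j, YY (k j) (N j) → (CY (k j) (N j) →⋆ₐ[ℂ]
        (Lp (HH (PT α α α)) 2 (cdat ν hν).μ →L[ℂ] Lp (HH (PT α α α)) 2 (cdat ν hν).μ))),
      (∀ j, LegNF (μ j) (w j) (ι j) (a j) (a' j)
        (H34.Ind.pi (cdat ν hν) (V := V3 hα hα hα) (adjV3 hα))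
        (H34.Ind.lam (cdat ν hν) (A3R hα hα hα))
        (H34.Ind.Xset (cdat ν hν) (HH (PT α α α)) ∪
          Set.range (H34.Ind.lam (cdat ν hν) (B3R hα hα hα))) Ω m (q j) (ZP q j)
        (Ec j) (F j)) ∧
      (∀ γ, (∀ j, sp (k j) (N j + 1) (q j γ) = 1) → γ = 1) ∧
      (∀ C : ℝ, {γ : Γ | ∀ j, nm (q j γ) ≤ C}.Finite)

/-- **The second leg is the flip of the first one.** -/
theorem exPT_of_half {J : Type} [Fintype J] {k : J → Type} [∀ j, NontriviallyNormedField (k j)]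
    [∀ j, ProperSpace (k j)] [∀ j, MeasurableSpace (k j)] {μ : ∀ j, Measure (k j)} {N : J → ℕ}
    {E : Type} [Group E] [TopologicalSpace E]
    [IsTopologicalGroup E] [LocallyCompactSpace E] [SecondCountableTopology E] [T2Space E]
    {ι : ∀ j, GG (k j) (N j) →* E} {a a' : ∀ j, E →* PG (k j) (N j + 1)}
    (h : ExPHalfT k μ N ι a a') : ExPStmtT k μ N ι a a' := by
  intro _ _ Γ _ _ _ _ ν _ hν hΓ hicc Λ _ _ hΛ I _ α hα
  refine exP_of_half ?_ (h (Γ := Γ) hν hΓ hicc hΛ hα)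
  intro κ iκ Ω m
  exact ⟨_, _, fun j w q Z Ec F l1 => ⟨_, _, legNF_flip hν (sT_sq hα) (sT_adj hα) (sT_V hα)
    (sT_A hα) (sT_B hα) (adjV3 hα) l1⟩⟩

/-- **[P-HALF-T]** for `E = ∏ PSL_(N j + 1)(k)`, one local field -/
def ExPSHalfT (k : Type) [NontriviallyNormedField k] [ProperSpace k] [MeasurableSpace k]
    (μ : Measure k) : Prop :=
  ∀ {J : Type} [Fintype J] [DecidableEq J] (N : J → ℕ), (∀ j, 2 ≤ N j) →
    ExPHalfT (fun _ : J => k) (fun _ => μ) N (iP (fun _ : J => k) N) (aP (fun _ : J => k) N)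
      (aP' (fun _ : J => k) N)

theorem exPST_of_half {k : Type} [NontriviallyNormedField k] [ProperSpace k] [MeasurableSpace k]
    {μ : Measure k} (h : ExPSHalfT k μ) : ExPST k μ :=
  fun N hN => exPT_of_half (h N hN)

end half

end Vale.Agent.P092.SNPT
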