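import Vale.Agent.P092.SNPT.Nam
import Vale.Agent.P092.H962.NT.HalfT

/-!
P092, TEAM N, all amplifications (helper157, helper962): **the closed theorems** for the class
`UN.LatticeS` (one factor `SL_n(k)/Z`), the products over one field and the named groups.
-/

set_option linter.all false

open MeasureTheory

namespace Vale.Agent.P092.SNPT.End

/-- **All `t`: every ICC lattice of `SL_n(k)/Z`, `n ≥ 3`, `k` any local field.** -/
theorem superAllS : ∀ (Γ : Type) [Group Γ], UN.LatticeS Γ → UN.SuperAll Γ :=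
  superAllS_of_half fun _ _ _ _ _ _ _ hk => H962.NT.exPSHalfT hk

/-- products, one local field -/
theorem finalAllK : FinalAllK :=
  finalAllK_of_half fun _ _ _ _ _ _ _ hk => H962.NT.exPSHalfT hk

/-- one factor, with `PSL_n(ℤ)` (finite index) and `PSL_n(F[x])` -/
theorem finalAllS : SNS.St.FinalAllS :=
  finalAllS_of_half fun _ _ _ _ _ _ _ hk => H962.NT.exPSHalfT hk

/-- `PSL_n(ℤ)`, `n ≥ 3` -/
theorem superAllPZ (n : ℕ) (hn : 3 ≤ n) :
    UN.SuperAll (Matrix.SpecialLinearGroup (Fin n) ℤ ⧸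
      Subgroup.center (Matrix.SpecialLinearGroup (Fin n) ℤ)) :=
  superAllPZ_of_half (fun _ _ _ _ _ _ _ hk => H962.NT.exPSHalfT hk) n hn

/-- `SL_n(ℤ)`, `n ≥ 3` odd -/
theorem superAllZ (n : ℕ) (hn : 3 ≤ n) (hodd : Odd n) :
    UN.SuperAll (Matrix.SpecialLinearGroup (Fin n) ℤ) :=
  superAllZ_of_half (fun _ _ _ _ _ _ _ hk => H962.NT.exPSHalfT hk) n hn hodd

end Vale.Agent.P092.SNPT.End
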