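import Vale.Agent.P092.SNPT.Un
import Vale.Agent.P092.SN.FinS

/-!
P092, TEAM N, all amplifications (helper157): the named groups (`PSL_n(ℤ)`, `SL_n(ℤ)` for odd `n`,
`PSL_n(F[x])`), from the first leg of the concrete picture of a product.
-/

set_option linter.all false

open MeasureTheory Topology Matrix

namespace Vale.Agent.P092.SNPT

open Vale.Agent.P092.SN Vale.Agent.P092.SNT Vale.Agent.P092.SNP
open Vale.Agent.P092.H387.Ad (PS NF inj_comp_icc lat_comp t2_ps lc_ps sc_ps)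

/-- `SNS.St.FinalAllS` from the core statement for the groups `PSL_n(k)` -/
theorem finalAllS_of (h : ∀ (k : Type) [NontriviallyNormedField k] [ProperSpace k],
    H515.St.LocK k → ∀ n, 3 ≤ n → CoreAllE (PS n k)) : SNS.St.FinalAllS := by
  have h1 : ∀ (Γ : Type) [Group Γ], SNS.St.LatticeS Γ → SR.St.SuperAll Γ := by
    intro Γ _ hΓ
    obtain ⟨k, _, _, n, i, hk, hn, hi, hl⟩ := SNS.exists_ps hΓ
    exact superAll_of_coreAllE (h k hk n hn) hΓ.1 i hi hl
  exact ⟨h1, fun n hn Γ hΓ => h1 _ (SNS.latticeS_Z hn Γ hΓ),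
    fun F _ _ n hn => h1 _ (SNS.latticeS_Fx F hn)⟩

section half

variable (h : ∀ (k : Type) [NontriviallyNormedField k] [ProperSpace k]
  [MeasurableSpace k] [BorelSpace k] (μ : Measure k) [μ.IsAddHaarMeasure], H933.LocK k →
  ExPSHalfT k μ)

include h

theorem coreAllE_ps1 (k : Type) [NontriviallyNormedField k] [ProperSpace k]
    (hk : H515.St.LocK k) (n : ℕ) (hn : 3 ≤ n) : CoreAllE (PS n k) :=
  coreAllE_one (coreAllE_psK h k hk Unit (fun _ => n) fun _ => hn)

theorem finalAllS_of_half : SNS.St.FinalAllS :=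
  finalAllS_of fun k _ _ hk n hn => coreAllE_ps1 h k hk n hn

/-- `PSL_n(ℤ)`, `n ≥ 3`, all amplifications -/
theorem superAllPZ_of_half (n : ℕ) (hn : 3 ≤ n) :
    UN.SuperAll (Matrix.SpecialLinearGroup (Fin n) ℤ ⧸
      Subgroup.center (Matrix.SpecialLinearGroup (Fin n) ℤ)) := by
  obtain ⟨h1, h2, h3⟩ := H387.Ad.psl_Z n
  exact UN.superAll_of (superAll_of_coreAllE (coreAllE_ps1 h ℝ SNS.locK_real n hn) h1 _ h2 h3)

/-- Subgroups of finite index of `SL_n(ℤ)` which do not contain `-1`, all amplifications -/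
theorem superAllZ'_of_half (n : ℕ) (hn : 3 ≤ n)
    (Γ : Subgroup (Matrix.SpecialLinearGroup (Fin n) ℤ)) (hΓ : Γ.FiniteIndex)
    (hg : ∀ g ∈ Γ, (g : Matrix (Fin n) (Fin n) ℤ) ≠ -1) : SR.St.SuperAll Γ := by
  have h1 : SN.St.SlLatticeOver ℝ Γ := by
    haveI := hΓ
    exact slLattice_of_finiteIndex hn Γ hg
  obtain ⟨hicc, m, i, hm, hi, hl⟩ := h1
  exact superAll_of_coreAllE (coreAllE_ps1 h ℝ SNS.locK_real m hm) hicc
    ((QuotientGroup.mk' _).comp i)
    (inj_comp_icc hicc hi _ fun e he x =>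
      (Subgroup.mem_center_iff.1 ((QuotientGroup.eq_one_iff e).1 he)) x)
    (lat_comp hl _ continuous_quotient_mk' (QuotientGroup.mk'_surjective _)
      fun C hC => H793.proper_mk _ (H387.Ad.finite_center_sl m ℝ).isCompact C hC)

/-- `SL_n(ℤ)`, `n ≥ 3` odd, all amplifications -/
theorem superAllZ_of_half (n : ℕ) (hn : 3 ≤ n) (hodd : Odd n) :
    UN.SuperAll (Matrix.SpecialLinearGroup (Fin n) ℤ) := by
  refine UN.superAll_of ?_
  have h1 : SR.St.SuperAll (⊤ : Subgroup (Matrix.SpecialLinearGroup (Fin n) ℤ)) := by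
    refine superAllZ'_of_half h n hn ⊤ inferInstance fun g _ hg => ?_
    have h2 := g.2
    rw [hg, Matrix.det_neg, Matrix.det_one, Fintype.card_fin, hodd.neg_one_pow] at h2
    norm_num at h2
  exact H58.superAll_equiv Subgroup.topEquiv.symm h1

end half

end Vale.Agent.P092.SNPT
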