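import Vale.Agent.P092.SNPT.All
import Vale.Agent.P092.UN.NfA

/-!
P092, TEAM N, all amplifications (helper157): the class `UN.LatticeS` (one factor `SL_n(k)/Z`) and the
products over one field, from the first leg of the concrete picture of a product.
-/

set_option linter.all false

open MeasureTheory Topology

namespace Vale.Agent.P092.SNPT

open Vale.Agent.P092.SN Vale.Agent.P092.SNT Vale.Agent.P092.SNP
open Vale.Agent.P092.H387.Ad (PS NF inj_comp_icc lat_comp t2_ps lc_ps sc_ps)

/-- **the core statement for products of groups `PSL_n(k)`**, one field, all amplifications -/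
theorem coreAllE_psK (h : ∀ (k : Type) [NontriviallyNormedField k] [ProperSpace k]
    [MeasurableSpace k] [BorelSpace k] (μ : Measure k) [μ.IsAddHaarMeasure], H933.LocK k →
    ExPSHalfT k μ) (k : Type) [NontriviallyNormedField k] [ProperSpace k] (hk : H515.St.LocK k)
    (I : Type) [Fintype I] (n : I → ℕ) (hn : ∀ j, 3 ≤ n j) : CoreAllE (∀ j, PS (n j) k) := by
  letI : MeasurableSpace k := borel k
  haveI : BorelSpace k := ⟨rfl⟩
  classical
  obtain ⟨h1, h2, -⟩ := H34.XN.joints (μ := (Measure.addHaar : Measure k)) (SN.lk hk)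
  obtain ⟨N, rfl⟩ : ∃ N : I → ℕ, n = fun j => N j + 1 :=
    ⟨fun j => n j - 1, funext fun j => by
      have h3 := hn j
      change n j = n j - 1 + 1
      omega⟩
  exact coreAllE_PS (SN.lk hk) h1 h2 (H34.XN.x1Stmt (SN.lk hk))
    (exPST_of_half (h k _ (SN.lk hk))) (H34.XN.xcpStmt _ N) fun j => by
      have h3 : 3 ≤ N j + 1 := hn j
      omega

/-- one factor -/
theorem coreAllE_one {k : Type} [NontriviallyNormedField k] [ProperSpace k] {n : ℕ}
    (h : CoreAllE (Unit → PS n k)) : CoreAllE (PS n k) := by
  intro Γ hΓ hicc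
  haveI := t2_ps n k
  haveI : LocallyCompactSpace (Unit → PS n k) := by
    haveI := lc_ps n k
    infer_instance
  let p : PS n k →* (Unit → PS n k) := MonoidHom.pi fun _ => MonoidHom.id _
  have hp : ∀ x u, p x u = x := fun x u => rfl
  have hr : Γ.subtype.range = Γ := Γ.range_subtype
  have hl : H515.St.IsLattice Γ.subtype.range := by rw [hr]; exact hΓ
  refine superAll_of_coreAllE h hicc (p.comp Γ.subtype) ?_ (lat_comp hl p ?_ ?_ ?_)
  · intro x y hxy
    exact Subtype.ext (congrFun hxy ())
  · exact continuous_pi fun _ => continuous_id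
  · intro y
    exact ⟨y (), funext fun u => rfl⟩
  · intro C hC
    have h2 := hC.image (continuous_apply () : Continuous fun x : Unit → PS n k => x ())
    have h3 : p ⁻¹' C = (fun x : Unit → PS n k => x ()) '' C := by
      ext x
      constructor
      · intro hx
        exact ⟨p x, hx, rfl⟩
      · rintro ⟨y, hy, rfl⟩
        have h4 : p (y ()) = y := funext fun u => rfl
        change p (y ()) ∈ C
        rw [h4]
        exact hy
    rw [h3]
    exact h2

/-- **Every ICC lattice of `SL_n(k)/Z`, `n ≥ 3`, `k` any local field, all amplifications**, from the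
first leg of the concrete picture. -/
theorem superAllS_of_half (h : ∀ (k : Type) [NontriviallyNormedField k] [ProperSpace k]
    [MeasurableSpace k] [BorelSpace k] (μ : Measure k) [μ.IsAddHaarMeasure], H933.LocK k →
    ExPSHalfT k μ) : ∀ (Γ : Type) [Group Γ], UN.LatticeS Γ → UN.SuperAll Γ := by
  rintro Γ _ ⟨hicc, E, _, _, i, ht, hi, hl⟩
  obtain ⟨_, _, n, k, _, _, p, hk, hn, hc, hs, hpr, hzz⟩ := UN.nf_typeA ht
  haveI := t2_ps n k
  haveI := lc_ps n k
  refine UN.superAll_of ?_
  have hl' := (UN.isLattice_iff _).1 hl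
  exact superAll_of_coreAllE (coreAllE_one (coreAllE_psK h k hk Unit (fun _ => n) fun _ => hn))
    hicc (p.comp i) (inj_comp_icc hicc hi p hzz) (lat_comp hl' p hc hs hpr)

end Vale.Agent.P092.SNPT
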